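import Vale.Agent.P235.H627.Seq
import Vale.Agent.P235.H538.Cost

/-!
`seq_core` and `lin_num` with helper538's `law` (the two laws agree on `Icc 1 J`).
-/

open Finset

namespace Vale.Agent.P235.H627

theorem law_eq538 {J j : ℕ} (h : j ≤ J) : law J j = H538.law J j := by
  unfold law H538.law H538.qq
  by_cases hj : j < J
  · rw [if_pos hj, if_pos hj]; norm_num
  · have : j = J := by omega
    rw [if_neg hj, if_neg hj, this]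

theorem sum_law_eq538 (J : ℕ) (f : ℕ → ℝ) :
    ∑ j ∈ Icc 1 J, law J j * f j = ∑ j ∈ Icc 1 J, H538.law J j * f j :=
  Finset.sum_congr rfl fun j hj => by rw [law_eq538 (mem_Icc.mp hj).2]

theorem seq_core538 {c C : ℝ} (hc : 0 < c) :
    ∃ J0 : ℕ, 1 ≤ J0 ∧ ∃ ε₀ : ℝ, 0 < ε₀ ∧ ∀ ε : ℝ, 0 ≤ ε → ε ≤ ε₀ →
      ∀ (J : ℕ), 1 ≤ J → ∀ (l : ℕ → ℝ), (∀ i, 0 ≤ l i) → ∀ (r : ℝ), 0 ≤ r →
      ∀ (B : Finset ℕ), c * r ≤ tailS J l 0 →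
      (∀ j ∈ Icc 1 (min J0 J), j ∉ B → (6 / 5) * (l j / 2 ^ j) ≤ tailS J l j + ε * r) →
      (c / 4) * r ≤ ∑ j ∈ (Icc 1 (min J0 J)).filter (· ∈ B), (15 / 16 : ℝ) ^ j * l j ∨
      C * r ≤ ∑ j ∈ Icc 1 J, H538.law J j * l j := by
  obtain ⟨J0, hJ0, ε₀, hε₀, H⟩ := seq_core (C := C) hc
  refine ⟨J0, hJ0, ε₀, hε₀, fun ε h1 h2 J hJ l hl r hr B hS hg => ?_⟩
  rw [← sum_law_eq538]
  exact H ε h1 h2 J hJ l hl r hr B hS hg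

theorem lin_num538 {c w : ℝ} (hc : 0 < c) (hw : 0 < w) :
    ∃ J0 : ℕ, 1 ≤ J0 ∧ ∃ c₈ : ℝ, 0 < c₈ ∧ ∃ ε₀ : ℝ, 0 < ε₀ ∧ ∀ ε : ℝ, 0 ≤ ε → ε ≤ ε₀ →
      ∀ (ε' : ℝ), 0 < ε' → ∀ (J : ℕ), 1 ≤ J →
      ∀ (l N R : ℕ → ℝ), (∀ i, 0 ≤ l i) → (∀ i, 0 ≤ N i) → (∀ i, 0 ≤ R i) →
      ∀ (r : ℝ), 0 ≤ r → c * r ≤ tailS J l 0 →
      (∀ j ∈ Icc 1 (min J0 J), (6 / 5) * (l j / 2 ^ j) ≤ tailS J l j + ε * r ∨
        (c₈ * r ≤ l j → ε' * l j ≤ N j ∨ (2048 / (c * w)) * l j ≤ R j)) →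
      r ≤ (1 / 16) * (w * ∑ j ∈ Icc 1 J, H538.law J j * l j)
        + (128 / (c * w * ε')) * (w * ∑ j ∈ Icc 1 J, H538.law J j * N j)
        + (1 / 16) * (w * ∑ j ∈ Icc 1 J, H538.law J j * R j) := by
  obtain ⟨J0, hJ0, c₈, hc₈, ε₀, hε₀, H⟩ := lin_num hc hw
  refine ⟨J0, hJ0, c₈, hc₈, ε₀, hε₀, fun ε h1 h2 ε' h3 J hJ l N R hl hN hR r hr hS hg => ?_⟩
  rw [← sum_law_eq538, ← sum_law_eq538, ← sum_law_eq538]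
  exact H ε h1 h2 ε' h3 J hJ l N R hl hN hR r hr hS hg

/-- The tail sum in the weights `w_j = 2^-j` (`j < J`), `w_J = 2^(1-J)`. -/
theorem tailS_weights {J : ℕ} (hJ : 1 ≤ J) (l : ℕ → ℝ) :
    tailS J l 0 = ∑ j ∈ Icc 1 J, (if j < J then (1 / 2 : ℝ) ^ j else 2 * (1 / 2 : ℝ) ^ J) * l j := by
  obtain ⟨m, rfl⟩ : ∃ m, J = m + 1 := ⟨J - 1, by omega⟩
  unfold tailS
  have h0 : Ioc 0 (m + 1) = Icc 1 (m + 1) := by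
    ext i; simp only [mem_Ioc, mem_Icc]; omega
  rw [h0, Finset.sum_Icc_succ_top (by omega), Finset.sum_Icc_succ_top (by omega)]
  rw [if_neg (by omega)]
  have h1 : ∑ j ∈ Icc 1 m, (if j < m + 1 then (1 / 2 : ℝ) ^ j else 2 * (1 / 2 : ℝ) ^ (m + 1)) * l j
      = ∑ j ∈ Icc 1 m, l j / 2 ^ j := by
    refine Finset.sum_congr rfl fun j hj => ?_
    have := (mem_Icc.mp hj).2
    rw [if_pos (by omega), one_div, inv_pow]; ring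
  rw [h1]
  have h2 : (1 / 2 : ℝ) ^ (m + 1) = 1 / 2 ^ (m + 1) := by rw [one_div, inv_pow]; ring
  rw [h2]; ring

end Vale.Agent.P235.H627
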