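import Vale.Agent.P235.H627.Tool

/-! P235, LL, row LIN2 = (8): the bad steps. -/

open Finset SimpleGraph

namespace Vale.Agent.P235.LL.H627

open Vale.Agent.P235 Vale.Agent.P235.LL Vale.Agent.P235.H627

variable {V : Type} {G : SimpleGraph V} {ℓ : Sym2 V → ℝ}

section stage

variable [Finite V] {D : Dom V} (k : Fin 3 × Bool)

omit [Finite V] in
theorem Uc_ne (hD : IsDom G ℓ D) : (D.Uᶜ).Nonempty := hD.out

theorem hq_aux (x : V) : ∀ i, 1 ≤ i → i ≤ D.Jm k → ∀ v ∈ D.U,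
    1 / 2 ^ i ≤ D.s k v → dto G ℓ (D.vis k i) x ≤ pathDist G ℓ x v := by
  intro i hi _ v _ hs
  refine dto_le x fun _ => ⟨hi, ?_⟩
  rw [div_le_iff₀ (by positivity)] at hs
  linarith

theorem hsJ_aux (D : Dom V) : ∀ v ∈ D.U, 0 < D.s k v → 1 / 2 ^ D.Jm k ≤ D.s k v := by
  intro v hv hs
  have := (Jm_spec D k).2 v hv hs
  rw [div_le_iff₀ (by positivity)]
  linarith

omit [Finite V] in
theorem hedge_aux (hℓ : ∀ e ∈ G.edgeSet, 0 < ℓ e) (hD : IsDom G ℓ D) :
    ∀ u ∈ D.U, ∀ v ∈ D.U, G.Adj u v → |D.c k u - D.c k v| ≤ D.s k u * ℓ s(u, v) := by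
  intro u hu v hv h
  refine (hD.edge k u v hu hv h).trans ?_
  exact mul_le_mul_of_nonneg_right (min_le_left _ _) (hℓ _ (G.mem_edgeSet.mpr h)).le

/-- the loss `l_i = p' - d(x, M_i ∪ N(U'))` of the step `i` -/
noncomputable def lo (G : SimpleGraph V) (ℓ : Sym2 V → ℝ) (D : Dom V) (k : Fin 3 × Bool) (x : V)
    (i : ℕ) : ℝ := dto G ℓ D.Uᶜ x - dto G ℓ (D.vis k i) x

theorem lo_nonneg (hD : IsDom G ℓ D) (x : V) (i : ℕ) : 0 ≤ lo G ℓ D k x i := by
  have := dto_mono (G := G) (ℓ := ℓ) (Uc_ne hD) (compl_sub_vis (D := D) (k := k) (j := i)) x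
  unfold lo; linarith

theorem stage_top (hc : G.Connected) (hℓ : ∀ e ∈ G.edgeSet, 0 < ℓ e) (hD : IsDom G ℓ D)
    {x v z : V} (p : G.Walk x v) (h : G.Adj v z)
    (hp : ((p.concat h).edges.map ℓ).sum = pathDist G ℓ x z) (hU : ∀ u ∈ p.support, u ∈ D.U)
    (hz : z ∉ D.U) (hzd : pathDist G ℓ x z = dto G ℓ D.Uᶜ x) :
    |D.X ℓ k v z - D.c k x| ≤ tailS (D.Jm k) (lo G ℓ D k x) 0 := by
  have hJ := (Jm_spec D k).1
  have hdart : D.Dart G v z := ⟨hU v p.end_mem_support, hz, h⟩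
  have h1 := H492.var_dart hc hℓ (U := D.U) (c := D.c k) (s := D.s k) hJ
    (q := fun i => dto G ℓ (D.vis k i) x) (fun v _ => hD.s0 k v) (fun v _ => hD.s1 k v)
    (hsJ_aux k D) (hedge_aux k hℓ hD) (hq_aux k x) p h hp hU (hD.dart k v z hdart)
  rw [hzd, H492.BB_top hJ (fun i _ _ => dto_mono (Uc_ne hD) compl_sub_vis x)] at h1
  exact h1

theorem stage_mid (hc : G.Connected) (hℓ : ∀ e ∈ G.edgeSet, 0 < ℓ e) (hD : IsDom G ℓ D)
    {x z : V} (hxU : x ∈ D.U) {i : ℕ} (hi : 1 ≤ i) (hiJ : i ≤ D.Jm k) (hz : z ∈ D.vis k i)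
    (hzU : z ∈ D.U) (hzd : pathDist G ℓ x z = dto G ℓ (D.vis k i) x) :
    |D.c k z - D.c k x| ≤ tailS (D.Jm k) (lo G ℓ D k x) i - lo G ℓ D k x i / 2 ^ i := by
  have hJ := (Jm_spec D k).1
  have hw : ∃ p : G.Walk x z, (p.edges.map ℓ).sum = pathDist G ℓ x z ∧ ∀ u ∈ p.support, u ∈ D.U := by
    by_cases hx : x ∈ D.vis k i
    · have h0 : pathDist G ℓ x z = 0 := by rw [hzd, dto_mem hc hℓ hx]
      have hxz : x = z := by
        by_contra hne
        exact absurd h0 ((pathDist_isMet hc hℓ).pos x z hne).ne'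
      subst hxz
      exact ⟨Walk.nil, by simp [h0], by simpa using hxU⟩
    · obtain ⟨v, p, h, h1, h2⟩ := geod_comp hc hℓ hx hz hzd
      refine ⟨p.concat h, h1, fun u hu => ?_⟩
      rw [Walk.support_concat] at hu
      simp only [List.mem_append, List.mem_singleton] at hu
      rcases hu with hu | hu
      · by_contra hU
        exact comp_disj (h2 u hu) (compl_sub_vis hU)
      · rw [hu]; exact hzU
  obtain ⟨p, hp, hpU⟩ := hw
  have h1 := H492.var_geod hc hℓ (U := D.U) (c := D.c k) (s := D.s k) hJ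
    (q := fun i => dto G ℓ (D.vis k i) x) (fun v _ => hD.s0 k v) (fun v _ => hD.s1 k v)
    (hsJ_aux k D) (hedge_aux k hℓ hD) (hq_aux k x) p hp hpU
  rw [hzd] at h1
  have h2 := H492.BB_mid (q := fun i => dto G ℓ (D.vis k i) x) (t := dto G ℓ D.Uᶜ x) hi hiJ
    (fun a b _ hab _ => dto_mono ((Uc_ne hD).mono compl_sub_vis) (vis_mono hab (hD.s0 k)) x)
  change |D.c k z - D.c k x| ≤ H492.BB (D.Jm k) _ ((fun i => dto G ℓ (D.vis k i) x) i) at h1
  rw [h2] at h1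
  exact h1

/-- expected progress of one move in terms of the losses -/
theorem R1_ge (hD : IsDom G ℓ D) (x : V) :
    1 / 6 * ∑ i ∈ Icc 1 (D.Jm k), H538.law (D.Jm k) i * lo G ℓ D k x i ≤ Sys.R1 G ℓ D x := by
  unfold Sys.R1
  have h := E_ge D k (fun k j => dto G ℓ D.Uᶜ x - dto G ℓ (D.vis k (j + 1)) x)
    (fun k' j _ => lo_nonneg k' hD x (j + 1))
  rw [← sum_mass D k (lo G ℓ D k x)]
  exact h

end stage

section child

variable [Finite V] {K : ℝ}

omit [Finite V] in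
theorem ch_spec (S : Sys G ℓ K) {D : Dom V} (hD : S.Good D) (k : Fin 3 × Bool) (j : ℕ) {x : V}
    (hx : x ∉ D.vis k (j + 1)) : S.Good (S.ch D k j x) ∧
      (S.ch D k j x).U = compSet G (D.vis k (j + 1)) x ∧ Link G D (S.ch D k j x) k (j + 1) := by
  have h := S.child D hD k j x hx
  unfold Sys.ch Sys.chS
  rw [dif_pos h]
  exact h.choose_spec

/-- the gain of an invisible point is attained at a dart of the child -/
theorem N_att (S : Sys G ℓ K) {D : Dom V} {k : Fin 3 × Bool} {j : ℕ} {x : V}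
    (hx : x ∉ D.vis k (j + 1)) (hne : ∃ v b, (S.ch D k j x).Dart G v b) :
    ∃ v b, (S.ch D k j x).Dart G v b ∧ S.N D k j x = dto G ℓ D.Uᶜ b +
      ∑ i, |(S.ch D k j x).X ℓ i v b - (S.ch D k j x).c i x| +
      2 ^ (j + 1) * |D.cv k b - D.c k x| := by
  obtain ⟨v0, b0, h0⟩ := hne
  have : Nonempty {e : V × V // (S.ch D k j x).Dart G e.1 e.2} := ⟨⟨(v0, b0), h0⟩⟩
  unfold Sys.N Sys.Nd
  rw [if_neg hx]
  obtain ⟨e, he⟩ := exists_eq_ciInf_of_finite
    (f := fun e : {e : V × V // (S.ch D k j x).Dart G e.1 e.2} => dto G ℓ D.Uᶜ e.1.2 +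
      ∑ i, |(S.ch D k j x).X ℓ i e.1.1 e.1.2 - (S.ch D k j x).c i x| +
      2 ^ (j + 1) * |D.cv k e.1.2 - D.c k x|)
  exact ⟨e.1.1, e.1.2, e.2, he.symm⟩

omit [Finite V] in
/-- the carried coordinate is 1-Lipschitz at the edges meeting the child -/
theorem cv_lip (hℓ : ∀ e ∈ G.edgeSet, 0 < ℓ e) {D D' : Dom V} {k : Fin 3 × Bool} {j : ℕ} {x0 : V}
    (hD : IsDom G ℓ D) (hU : D'.U = compSet G (D.vis k (j + 1)) x0) (hL : Link G D D' k (j + 1)) :
    ∀ x ∈ D'.U, ∀ y, G.Adj x y →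
      |2 ^ (j + 1) * D.cv k x - 2 ^ (j + 1) * D.cv k y| ≤ ℓ s(x, y) := by
  intro x hx y h
  have hpos := hℓ _ (G.mem_edgeSet.mpr h)
  have hxv : x ∉ D.vis k (j + 1) := by rw [hU] at hx; exact comp_disj hx
  have hxU : x ∈ D.U := by by_contra hc; exact hxv (compl_sub_vis hc)
  have hs : 2 ^ (j + 1) * D.s k x < 1 := by
    by_contra hc
    push Not at hc
    exact hxv fun _ => ⟨by omega, hc⟩
  have key : |D.cv k x - D.cv k y| ≤ D.s k x * ℓ s(x, y) := by
    unfold Dom.cv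
    rw [if_pos hxU]
    by_cases hy : y ∈ D.U
    · rw [if_pos hy]
      refine (hD.edge k x y hxU hy h).trans ?_
      exact mul_le_mul_of_nonneg_right (min_le_left _ _) hpos.le
    · rw [if_neg hy]
      have hyU' : y ∉ D'.U := by
        intro hc
        rw [hU] at hc
        exact comp_disj hc (compl_sub_vis hy)
      have hyP : y ∈ D.P k.1 := (hL.nb x y ⟨hx, hyU', h⟩).resolve_left hy
      have h1 := hD.dart k x y ⟨hxU, hy, h⟩
      unfold Dom.X at h1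
      rwa [if_pos hyP] at h1
  rw [← mul_sub, abs_mul, abs_of_pos (by positivity : (0 : ℝ) < 2 ^ (j + 1))]
  calc 2 ^ (j + 1) * |D.cv k x - D.cv k y| ≤ 2 ^ (j + 1) * (D.s k x * ℓ s(x, y)) :=
        mul_le_mul_of_nonneg_left key (by positivity)
    _ = (2 ^ (j + 1) * D.s k x) * ℓ s(x, y) := by ring
    _ ≤ 1 * ℓ s(x, y) := mul_le_mul_of_nonneg_right hs.le hpos.le
    _ = ℓ s(x, y) := one_mul _

/-- the foot of the dart at the nearest point is far away, in the coordinate `(i, false)` -/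
theorem foot_far (hc : G.Connected) (hℓ : ∀ e ∈ G.edgeSet, 0 < ℓ e) {D D' : Dom V}
    {k : Fin 3 × Bool} {j : ℕ} {x0 : V}
    (hD : IsDom G ℓ D) (hD' : IsDom G ℓ D') (hU : D'.U = compSet G (D.vis k (j + 1)) x0)
    (hL : Link G D D' k (j + 1)) {i : Fin 3}
    (hw : ∀ b ∈ D'.P i, D'.w i b = 2 ^ (j + 1) * D.cv k b) {v z b0 : V} (hdz : D'.Dart G v z)
    (hb0 : b0 ∈ D'.P i) :
    dto G ℓ D.Uᶜ z - dto G ℓ D.Uᶜ b0 ≤
      2 * D'.X ℓ (i, false) v z + 2 ^ (j + 1) * |D.cv k z - D.cv k b0| := by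
  obtain ⟨v', a, hda, ha, hf⟩ := hD'.foot i v z hdz
  have h1 := hf (dto G ℓ D.Uᶜ) (fun x _ y h =>
    (dto_lip' hc hℓ (Uc_ne hD) x y).trans (pathDist_adj hℓ h))
  have h2 := hf (fun v => 2 ^ (j + 1) * D.cv k v) (cv_lip hℓ hD hU hL)
  have h3 := hD'.pd i a ha b0 hb0
  rw [hw a ha, hw b0 hb0] at h3
  have h4 := dto_lip hc hℓ (Uc_ne hD) a b0
  have h5 : 2 ^ (j + 1) * |D.cv k z - D.cv k b0| =
      |2 ^ (j + 1) * D.cv k z - 2 ^ (j + 1) * D.cv k b0| := by
    rw [← mul_sub, abs_mul, abs_of_pos (by positivity : (0 : ℝ) < 2 ^ (j + 1))]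
  have h6 : |2 ^ (j + 1) * D.cv k a - 2 ^ (j + 1) * D.cv k b0| ≤
      |2 ^ (j + 1) * D.cv k z - 2 ^ (j + 1) * D.cv k a| +
      |2 ^ (j + 1) * D.cv k z - 2 ^ (j + 1) * D.cv k b0| := by
    rw [abs_sub_comm (2 ^ (j + 1) * D.cv k z) (2 ^ (j + 1) * D.cv k a)]
    exact abs_sub_le _ _ _
  have h7 := (abs_le.mp h1).2
  rw [h5]
  linarith

end child

/-- (8), second stage: all steps of a coordinate `(i, false)` are good -/
theorem stage_good [Finite V] (hc : G.Connected) (hℓ : ∀ e ∈ G.edgeSet, 0 < ℓ e) {D : Dom V}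
    (hD : IsDom G ℓ D) (i : Fin 3) {x : V} (hxU : x ∈ D.U) {e : ℝ} (he : 0 ≤ e)
    (hx : D.c (i, false) x ≤ e) {m : ℕ} (hm : 1 ≤ m) (hmJ : m ≤ D.Jm (i, false)) :
    2 * (lo G ℓ D (i, false) x m / 2 ^ m) ≤
      tailS (D.Jm (i, false)) (lo G ℓ D (i, false) x) m + e := by
  have hne : (D.vis (i, false) m).Nonempty := (Uc_ne hD).mono compl_sub_vis
  obtain ⟨z, hz, hzd⟩ := dto_att (G := G) (ℓ := ℓ) hne x
  have htail := tailS_nonneg (J := D.Jm (i, false)) (l := lo G ℓ D (i, false) x)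
    (fun i' => lo_nonneg _ hD x i') m
  by_cases hzU : z ∈ D.U
  · have h1 := stage_mid (i, false) hc hℓ hD hxU hm hmJ hz hzU hzd
    have h2 := hD.pos i z hzU
    have h3 : lo G ℓ D (i, false) x m ≤ dto G ℓ D.Uᶜ z := by
      have := dto_lip hc hℓ (Uc_ne hD) x z
      unfold lo
      linarith
    have h4 := (hz hzU).2
    have h5 : lo G ℓ D (i, false) x m / 2 ^ m ≤ D.s (i, false) z * dto G ℓ D.Uᶜ z := by
      rw [div_le_iff₀ (by positivity)]
      calc lo G ℓ D (i, false) x m ≤ 1 * dto G ℓ D.Uᶜ z := by rw [one_mul]; exact h3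
        _ ≤ (2 ^ m * D.s (i, false) z) * dto G ℓ D.Uᶜ z :=
            mul_le_mul_of_nonneg_right h4 (dto_nonneg hℓ _ _)
        _ = D.s (i, false) z * dto G ℓ D.Uᶜ z * 2 ^ m := by ring
    have h6 := (abs_le.mp h1).2
    linarith
  · have h1 : dto G ℓ D.Uᶜ x ≤ pathDist G ℓ x z := dto_le x hzU
    have h2 : lo G ℓ D (i, false) x m = 0 := by
      refine le_antisymm ?_ (lo_nonneg _ hD x m)
      unfold lo; linarith
    rw [h2]
    simp only [zero_div, mul_zero]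
    linarith

/-- **(8), a bad step**: either the gain is comparable with the loss `l`, or the next move makes
progress `C1 * l`. -/
theorem bad (C1 : ℝ) : ∃ ε' : ℝ, 0 < ε' ∧ ε' ≤ 1 ∧ ∀ (V : Type) [Finite V]
    (G : SimpleGraph V) (ℓ : Sym2 V → ℝ) (K : ℝ), G.Connected → (∀ e ∈ G.edgeSet, 0 < ℓ e) →
    ∀ (S : Sys G ℓ K) (D : Dom V), S.Good D → ∀ k j x l z,
    l = dto G ℓ D.Uᶜ x - dto G ℓ (D.vis k (j + 1)) x → 0 < l → z ∈ D.vis k (j + 1) →
    pathDist G ℓ x z = dto G ℓ (D.vis k (j + 1)) x →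
    2 ^ (j + 1) * |D.cv k z - D.c k x| ≤ (1 / 4) * l →
    ε' * l ≤ S.N D k j x ∨
      (x ∉ D.vis k (j + 1) ∧ C1 * l ≤ Sys.R1 G ℓ (S.ch D k j x) x) := by
  obtain ⟨J0, hJ0, ε₀, hε₀, H⟩ := seq_core538 (c := 1 / 8) (C := 6 * C1) (by norm_num)
  refine ⟨min ε₀ (1 / 16), by positivity, (min_le_right _ _).trans (by norm_num), ?_⟩
  intro V _ G ℓ K hc hℓ S D hG k j x l z hl hl0 hz hzd hcz
  set ε' := min ε₀ (1 / 16) with hε'
  have hε'0 : 0 < ε' := by positivity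
  have hε'1 : ε' ≤ 1 / 16 := min_le_right _ _
  have hD := S.dom D hG
  by_cases hx : x ∈ D.vis k (j + 1)
  · left
    have h0 := dto_mem hc hℓ hx
    unfold Sys.N
    rw [if_pos hx]
    rw [h0, sub_zero] at hl
    rw [← hl]
    nlinarith
  by_cases hN : ε' * l ≤ S.N D k j x
  · exact Or.inl hN
  right
  refine ⟨hx, ?_⟩
  push Not at hN
  obtain ⟨hG', hU', hL⟩ := ch_spec S hG k j hx
  have hD' := S.dom _ hG'
  set D' := S.ch D k j x with hD'def
  have hvne : (D.vis k (j + 1)).Nonempty := ⟨z, hz⟩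
  -- the dart at `z`
  obtain ⟨v, p, h, hp, hpU⟩ := geod_comp hc hℓ hx hz hzd
  have hzU' : z ∉ D'.U := by rw [hU']; exact fun h => comp_disj h hz
  have hpU' : ∀ u ∈ p.support, u ∈ D'.U := by rw [hU']; exact hpU
  have hdz : D'.Dart G v z := ⟨hpU' v p.end_mem_support, hzU', h⟩
  have hxU' : x ∈ D'.U := by rw [hU']; exact comp_self hx
  have hzd' : pathDist G ℓ x z = dto G ℓ D'.Uᶜ x := by rw [hU', dto_comp hc hℓ hvne hx, hzd]
  obtain ⟨v0, b0, hd0, hNe⟩ := N_att S hx ⟨v, z, hdz⟩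
  rw [← hD'def] at hd0 hNe
  have hzU : z ∈ D.U := by
    by_contra hcon
    have := dto_le (G := G) (ℓ := ℓ) (S := D.Uᶜ) x hcon
    linarith
  have hdtz : l ≤ dto G ℓ D.Uᶜ z := by
    have := dto_lip hc hℓ (Uc_ne hD) x z
    linarith
  have hsum0 : 0 ≤ ∑ i, |D'.X ℓ i v0 b0 - D'.c i x| := Finset.sum_nonneg fun _ _ => abs_nonneg _
  have hdb0 := dto_nonneg hℓ D.Uᶜ b0
  have hcb0 : 0 ≤ 2 ^ (j + 1) * |D.cv k b0 - D.c k x| := by positivity
  obtain ⟨i, hi⟩ := hD'.cover v0 b0 hd0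
  rcases hL.pc i with hw | ⟨hk, hP⟩
  · -- the piece of `b0` is a chain of `M`
    have hf := foot_far hc hℓ hD hD' hU' hL hw hdz hi
    have h1 : 2 ^ (j + 1) * |D.cv k z - D.cv k b0| ≤
        2 ^ (j + 1) * |D.cv k z - D.c k x| + 2 ^ (j + 1) * |D.cv k b0 - D.c k x| := by
      rw [← mul_add]
      refine mul_le_mul_of_nonneg_left ?_ (by positivity)
      rw [abs_sub_comm (D.cv k b0)]
      exact abs_sub_le _ _ _
    have hterm : |D'.X ℓ (i, false) v0 b0 - D'.c (i, false) x| ≤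
        ∑ i, |D'.X ℓ i v0 b0 - D'.c i x| :=
      Finset.single_le_sum (f := fun i => |D'.X ℓ i v0 b0 - D'.c i x|)
        (fun _ _ => abs_nonneg _) (Finset.mem_univ _)
    have hX0 : D'.X ℓ (i, false) v0 b0 = 0 := by
      unfold Dom.X Dom.tau
      simp [hi]
    rw [hX0, zero_sub, abs_neg] at hterm
    have hcx : |D'.c (i, false) x| ≤ ε' * l := by linarith
    have hh : 5 / 16 * l ≤ D'.X ℓ (i, false) v z := by
      have : ε' * l ≤ 1 / 16 * l := mul_le_mul_of_nonneg_right hε'1 hl0.le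
      linarith
    have htop := stage_top (i, false) hc hℓ hD' p h hp hpU' hzU' hzd'
    have hS : 1 / 8 * l ≤ tailS (D'.Jm (i, false)) (lo G ℓ D' (i, false) x) 0 := by
      have h3 := (abs_le.mp htop).2
      have h4 := (abs_le.mp hcx).2
      have : ε' * l ≤ 1 / 16 * l := mul_le_mul_of_nonneg_right hε'1 hl0.le
      linarith
    have hres := H ε' hε'0.le (min_le_left _ _) (D'.Jm (i, false)) (Jm_spec D' _).1
      (lo G ℓ D' (i, false) x) (fun m => lo_nonneg _ hD' x m) l hl0.le ∅ hS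
      (fun m hm _ => by
        rw [mem_Icc] at hm
        have h5 := stage_good hc hℓ hD' i hxU' (e := ε' * l) (by positivity)
          ((abs_le.mp hcx).2) hm.1 (hm.2.trans (min_le_right _ _))
        have h6 : 0 ≤ lo G ℓ D' (i, false) x m / 2 ^ m :=
          div_nonneg (lo_nonneg _ hD' x m) (by positivity)
        linarith)
    rcases hres with hres | hres
    · simp only [Finset.notMem_empty, Finset.filter_false, Finset.sum_empty] at hres
      linarith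
    · have := R1_ge (G := G) (ℓ := ℓ) (i, false) hD' x
      linarith
  · -- the piece of `b0` is in the old piece, `τ = 0`: impossible
    exfalso
    have hb0U : b0 ∉ D.U := hD.pc k.1 b0 (hP b0 hi)
    have hcv0 : D.cv k b0 = 0 := by
      unfold Dom.cv Dom.tau
      rw [if_neg hb0U, if_neg (by simp [hk])]
    have hcvz : D.cv k z = D.c k z := by unfold Dom.cv; rw [if_pos hzU]
    have hkk : k = (k.1, false) := by rw [← hk]
    have hpos := hD.pos k.1 z hzU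
    rw [← hkk] at hpos
    have hs := (hz hzU).2
    have h1 : l ≤ 2 ^ (j + 1) * D.c k z := by
      calc l ≤ 1 * dto G ℓ D.Uᶜ z := by rw [one_mul]; exact hdtz
        _ ≤ (2 ^ (j + 1) * D.s k z) * dto G ℓ D.Uᶜ z :=
            mul_le_mul_of_nonneg_right hs (dto_nonneg hℓ _ _)
        _ = 2 ^ (j + 1) * (D.s k z * dto G ℓ D.Uᶜ z) := by ring
        _ ≤ 2 ^ (j + 1) * D.c k z := mul_le_mul_of_nonneg_left hpos (by positivity)
    rw [hcvz] at hcz
    rw [hcv0, zero_sub, abs_neg] at hNe hcb0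
    have h2 : (2 : ℝ) ^ (j + 1) * D.c k z ≤
        2 ^ (j + 1) * |D.c k z - D.c k x| + 2 ^ (j + 1) * |D.c k x| := by
      rw [← mul_add]
      refine mul_le_mul_of_nonneg_left ?_ (by positivity)
      have := le_abs_self (D.c k z - D.c k x)
      have := le_abs_self (D.c k x)
      linarith
    have : ε' * l ≤ 1 / 16 * l := mul_le_mul_of_nonneg_right hε'1 hl0.le
    linarith

end Vale.Agent.P235.LL.H627
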