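import Vale.Agent.P235.LL.Rows
import Vale.Agent.P235.H627.Bad

/-! P235, LL, row LIN2 = (8). -/

open Finset SimpleGraph

namespace Vale.Agent.P235.LL.H627

open Vale.Agent.P235 Vale.Agent.P235.LL Vale.Agent.P235.H627

variable {V : Type} {G : SimpleGraph V} {ℓ : Sym2 V → ℝ}

theorem N_nonneg (hℓ : ∀ e ∈ G.edgeSet, 0 < ℓ e) {K : ℝ} (S : Sys G ℓ K) (D : Dom V)
    (k : Fin 3 × Bool) (j : ℕ) (x : V) : 0 ≤ S.N D k j x := by
  unfold Sys.N
  split_ifs with h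
  · exact dto_nonneg hℓ _ _
  · unfold Sys.Nd
    refine Real.iInf_nonneg fun e => ?_
    have h1 := dto_nonneg hℓ D.Uᶜ e.1.2
    have h2 : 0 ≤ ∑ i, |(S.ch D k j x).X ℓ i e.1.1 e.1.2 - (S.ch D k j x).c i x| :=
      Finset.sum_nonneg fun _ _ => abs_nonneg _
    positivity

theorem E_nonneg (D : Dom V) (f : Fin 3 × Bool → ℕ → ℝ) (hf : ∀ k' j, 0 ≤ f k' j) :
    0 ≤ Sys.E D f := by
  unfold Sys.E
  refine Finset.sum_nonneg fun k _ => mul_nonneg (by norm_num) (Finset.sum_nonneg fun j _ => ?_)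
  exact mul_nonneg (mass_nonneg D k j) (hf k j)

theorem R1_nonneg [Finite V] {D : Dom V} (hD : IsDom G ℓ D) (x : V) : 0 ≤ Sys.R1 G ℓ D x := by
  unfold Sys.R1
  exact E_nonneg D _ fun k j => lo_nonneg k hD x (j + 1)

theorem R2_term_nonneg [Finite V] {K : ℝ} (S : Sys G ℓ K) {D : Dom V} (hD : S.Good D) (x : V)
    (k : Fin 3 × Bool) (j : ℕ) [Decidable (x ∈ D.vis k (j + 1))] :
    0 ≤ if x ∈ D.vis k (j + 1) then 0 else Sys.R1 G ℓ (S.ch D k j x) x := by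
  split_ifs with h
  · exact le_rfl
  · exact R1_nonneg (S.dom _ (ch_spec S hD k j h).1) x

theorem rowLin : RowLin := by
  classical
  obtain ⟨J0, hJ0, c₈, hc₈, ε₀, hε₀, H⟩ := lin_num538 (c := 1 / 16) (w := 1 / 6) (by norm_num)
    (by norm_num)
  obtain ⟨ε', hε', -, hbad⟩ := bad (2048 / (1 / 16 * (1 / 6)))
  set ε : ℝ := min ε₀ (1 / 100) with hε
  have hε0 : 0 < ε := by positivity
  have hε1 : ε ≤ 1 / 100 := min_le_right _ _
  refine ⟨1 / ε, 128 / (1 / 16 * (1 / 6) * ε'), by positivity, by positivity, ?_⟩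
  intro V _ G ℓ K hc hℓ hK S D hG k j x hx
  obtain ⟨hG1, hU1, hL1⟩ := ch_spec S hG k j hx
  have hD := S.dom D hG
  have hD1 := S.dom _ hG1
  have hN0 := N_nonneg hℓ S D k j x
  set D1 := S.ch D k j x with hD1def
  set r := dto G ℓ D.Uᶜ x - dto G ℓ D1.Uᶜ x with hr
  have hEN : 0 ≤ S.EN D1 x := E_nonneg D1 _ fun k' j' => N_nonneg hℓ S D1 k' j' x
  have hR1 : 0 ≤ Sys.R1 G ℓ D1 x := R1_nonneg hD1 x
  have hR2 : 0 ≤ S.R2 D1 x := E_nonneg D1 _ fun k' j' => R2_term_nonneg S hG1 x k' j'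
  have hK2 : 0 ≤ 128 / (1 / 16 * (1 / 6) * ε') * S.EN D1 x := by positivity
  have hK1 : 0 ≤ 1 / ε * S.N D k j x := by positivity
  by_cases hr0 : r ≤ 0
  · linarith
  push Not at hr0
  by_cases hN : ε * r < S.N D k j x
  · have h1 : r ≤ 1 / ε * S.N D k j x := by
      rw [one_div, ← div_eq_inv_mul, le_div_iff₀ hε0]
      linarith
    linarith
  push Not at hN
  have hxU1 : x ∈ D1.U := by rw [hU1]; exact comp_self hx
  -- the nearest point `z`
  obtain ⟨z, hz, hzd⟩ := dto_att (G := G) (ℓ := ℓ) (Uc_ne hD1) x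
  obtain ⟨v, p, h, hp, hpU⟩ := H492.geod_nearest hc hℓ (A := D1.Uᶜ) (x := x) (y := z)
    (by simpa using hxU1) hz (fun a ha => by rw [hzd]; exact dto_le x ha)
  have hpU' : ∀ u ∈ p.support, u ∈ D1.U := fun u hu => by simpa using hpU u hu
  have hdz : D1.Dart G v z := ⟨hpU' v p.end_mem_support, hz, h⟩
  obtain ⟨v0, b0, hd0, hNe⟩ := N_att S hx ⟨v, z, hdz⟩
  rw [← hD1def] at hd0 hNe
  have hsum0 : 0 ≤ ∑ i, |D1.X ℓ i v0 b0 - D1.c i x| := Finset.sum_nonneg fun _ _ => abs_nonneg _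
  have hdb0 := dto_nonneg hℓ D.Uᶜ b0
  have hcb0 : 0 ≤ 2 ^ (j + 1) * |D.cv k b0 - D.c k x| := by positivity
  -- CONTROL
  have hbz : r - ε * r ≤ pathDist G ℓ b0 z := by
    have h1 := dto_lip hc hℓ (Uc_ne hD) x z
    have h2 := dto_lip hc hℓ (Uc_ne hD) z b0
    rw [(pathDist_isMet hc hℓ).symm z b0] at h2
    linarith
  have hctl := hD1.ctrl v0 b0 v z hd0 hdz
  obtain ⟨k', hk'⟩ : ∃ k', (r - ε * r) / 12 ≤ |D1.X ℓ k' v0 b0 - D1.X ℓ k' v z| := by
    by_contra hcon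
    push Not at hcon
    have h3 := Finset.sum_lt_sum_of_nonempty (s := (Finset.univ : Finset (Fin 3 × Bool)))
      Finset.univ_nonempty (fun i _ => hcon i)
    rw [Finset.sum_const, Finset.card_univ] at h3
    simp only [Fintype.card_prod, Fintype.card_fin, Fintype.card_bool, nsmul_eq_mul] at h3
    push_cast at h3
    linarith
  have hterm : |D1.X ℓ k' v0 b0 - D1.c k' x| ≤ ∑ i, |D1.X ℓ i v0 b0 - D1.c i x| :=
    Finset.single_le_sum (f := fun i => |D1.X ℓ i v0 b0 - D1.c i x|)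
      (fun _ _ => abs_nonneg _) (Finset.mem_univ _)
  have hεr : ε * r ≤ 1 / 100 * r := mul_le_mul_of_nonneg_right hε1 hr0.le
  have hzx : 1 / 16 * r ≤ |D1.X ℓ k' v z - D1.c k' x| := by
    have h4 : |D1.X ℓ k' v0 b0 - D1.X ℓ k' v z| ≤
        |D1.X ℓ k' v0 b0 - D1.c k' x| + |D1.X ℓ k' v z - D1.c k' x| := by
      rw [abs_sub_comm (D1.X ℓ k' v z)]
      exact abs_sub_le _ _ _
    linarith
  have htop := stage_top k' hc hℓ hD1 p h hp hpU' hz hzd
  -- the numbers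
  set J := D1.Jm k' with hJ
  have hres := H ε hε0.le (min_le_left _ _) ε' hε' J (Jm_spec D1 k').1
    (lo G ℓ D1 k' x) (fun i => S.N D1 k' (i - 1) x)
    (fun i => if x ∈ D1.vis k' (i - 1 + 1) then 0 else Sys.R1 G ℓ (S.ch D1 k' (i - 1) x) x)
    (fun i => lo_nonneg k' hD1 x i) (fun i => N_nonneg hℓ S D1 k' _ x)
    (fun i => R2_term_nonneg S hG1 x k' (i - 1)) r hr0.le (hzx.trans htop) (by
      intro i hi
      rw [mem_Icc] at hi
      obtain ⟨m, rfl⟩ : ∃ m, i = m + 1 := ⟨i - 1, by omega⟩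
      by_cases hgood : 6 / 5 * (lo G ℓ D1 k' x (m + 1) / 2 ^ (m + 1)) ≤
          tailS J (lo G ℓ D1 k' x) (m + 1) + ε * r
      · exact Or.inl hgood
      right
      intro hl8
      push Not at hgood
      have hlpos : 0 < lo G ℓ D1 k' x (m + 1) := lt_of_lt_of_le (by positivity) hl8
      obtain ⟨y, hy, hyd⟩ := dto_att (G := G) (ℓ := ℓ) (S := D1.vis k' (m + 1))
        ((Uc_ne hD1).mono compl_sub_vis) x
      have hyU : y ∈ D1.U := by
        by_contra hcon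
        have h5 := dto_le (G := G) (ℓ := ℓ) (S := D1.Uᶜ) x hcon
        unfold lo at hlpos
        linarith
      have hmid := stage_mid k' hc hℓ hD1 hxU1 hi.1 (hi.2.trans (min_le_right _ _)) hy hyU hyd
      have hq : 2 ^ (m + 1) * |D1.cv k' y - D1.c k' x| ≤ 1 / 4 * lo G ℓ D1 k' x (m + 1) := by
        have hcv : D1.cv k' y = D1.c k' y := by unfold Dom.cv; rw [if_pos hyU]
        rw [hcv]
        have h6 : |D1.c k' y - D1.c k' x| ≤ 1 / 5 * (lo G ℓ D1 k' x (m + 1) / 2 ^ (m + 1)) := by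
          have : 0 ≤ ε * r := by positivity
          linarith
        calc 2 ^ (m + 1) * |D1.c k' y - D1.c k' x|
            ≤ 2 ^ (m + 1) * (1 / 5 * (lo G ℓ D1 k' x (m + 1) / 2 ^ (m + 1))) :=
              mul_le_mul_of_nonneg_left h6 (by positivity)
          _ = 1 / 5 * lo G ℓ D1 k' x (m + 1) := by field_simp
          _ ≤ 1 / 4 * lo G ℓ D1 k' x (m + 1) := by linarith
      have hb := hbad V G ℓ K hc hℓ S D1 hG1 k' m x (lo G ℓ D1 k' x (m + 1)) y rfl hlpos hy hyd hq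
      rcases hb with hb | ⟨hb1, hb2⟩
      · exact Or.inl hb
      · right
        simp only [Nat.add_sub_cancel]
        rw [if_neg hb1]
        exact hb2)
  have e1 := R1_ge (G := G) (ℓ := ℓ) k' hD1 x
  have e2 : 1 / 6 * ∑ i ∈ Icc 1 J, P235.H538.law J i * S.N D1 k' (i - 1) x ≤ S.EN D1 x := by
    have := E_ge D1 k' (fun k j => S.N D1 k j x) (fun k'' j' _ => N_nonneg hℓ S D1 k'' j' x)
    rw [hJ, ← sum_mass D1 k' (fun i => S.N D1 k' (i - 1) x)]
    exact this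
  have e3 : 1 / 6 * ∑ i ∈ Icc 1 J, P235.H538.law J i *
      (if x ∈ D1.vis k' (i - 1 + 1) then 0 else Sys.R1 G ℓ (S.ch D1 k' (i - 1) x) x) ≤
      S.R2 D1 x := by
    have := E_ge D1 k' (fun k j => if x ∈ D1.vis k (j + 1) then 0 else
      Sys.R1 G ℓ (S.ch D1 k j x) x) (fun k'' j' _ => R2_term_nonneg S hG1 x k'' j')
    rw [hJ, ← sum_mass D1 k' (fun i => if x ∈ D1.vis k' (i - 1 + 1) then 0 else
      Sys.R1 G ℓ (S.ch D1 k' (i - 1) x) x)]
    exact this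
  have e2' : 128 / (1 / 16 * (1 / 6) * ε') *
      (1 / 6 * ∑ i ∈ Icc 1 J, P235.H538.law J i * S.N D1 k' (i - 1) x) ≤
      128 / (1 / 16 * (1 / 6) * ε') * S.EN D1 x := mul_le_mul_of_nonneg_left e2 (by positivity)
  linarith

end Vale.Agent.P235.LL.H627
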