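import Mathlib

/-!
P235, planar O(loglog n): the real-analysis core of (8) (#13630).
Law of the macro move: `law J j = P(J = j)`, geometric with ratio `15/16`, truncated at `J`.
-/

open Finset

namespace Vale.Agent.P235.H627

/-- `P(J = j)` for the geometric law with ratio `15/16`, truncated at `J`. -/
noncomputable def law (J j : ℕ) : ℝ :=
  if j < J then (1 / 16) * (15 / 16 : ℝ) ^ (j - 1) else (15 / 16 : ℝ) ^ (J - 1)

lemma law_nonneg (J j : ℕ) : 0 ≤ law J j := by
  unfold law; split_ifs <;> positivity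

lemma law_ge {J j : ℕ} (_hj : 1 ≤ j) (hjJ : j ≤ J) :
    (1 / 16) * (15 / 16 : ℝ) ^ (j - 1) ≤ law J j := by
  unfold law
  split_ifs with h
  · exact le_rfl
  · have : j = J := by omega
    subst this
    have : (0 : ℝ) < (15 / 16 : ℝ) ^ (j - 1) := by positivity
    linarith

lemma law_ge' {J j : ℕ} (hj : 1 ≤ j) (hjJ : j ≤ J) :
    (1 / 16) * (15 / 16 : ℝ) ^ j ≤ law J j := by
  refine le_trans ?_ (law_ge hj hjJ)
  have h1 : (15 / 16 : ℝ) ^ j ≤ (15 / 16 : ℝ) ^ (j - 1) :=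
    pow_le_pow_of_le_one (by norm_num) (by norm_num) (by omega)
  linarith

/-- The law has total mass one. -/
lemma law_sum {J : ℕ} (hJ : 1 ≤ J) : ∑ j ∈ Icc 1 J, law J j = 1 := by
  obtain ⟨m, rfl⟩ : ∃ m, J = m + 1 := ⟨J - 1, by omega⟩
  have key : ∀ m k : ℕ, k ≤ m → ∑ j ∈ Icc 1 k, law (m + 1) j = 1 - (15 / 16 : ℝ) ^ k := by
    intro m k
    induction k with
    | zero => intro _; simp
    | succ k ih =>
      intro hk
      rw [Finset.sum_Icc_succ_top (by omega), ih (by omega)]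
      have : law (m + 1) (k + 1) = (1 / 16) * (15 / 16 : ℝ) ^ k := by
        unfold law; rw [if_pos (by omega)]; simp
      rw [this, pow_succ]; ring
  rw [Finset.sum_Icc_succ_top (by omega), key m m le_rfl]
  have : law (m + 1) (m + 1) = (15 / 16 : ℝ) ^ m := by
    unfold law; rw [if_neg (by omega)]; simp
  rw [this]; ring

/-- `S_j = sum_{j < i <= J} 2^-i l_i + 2^-J l_J`. -/
noncomputable def tailS (J : ℕ) (l : ℕ → ℝ) (j : ℕ) : ℝ :=
  ∑ i ∈ Ioc j J, l i / 2 ^ i + l J / 2 ^ J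

lemma tailS_nonneg {J : ℕ} {l : ℕ → ℝ} (hl : ∀ i, 0 ≤ l i) (j : ℕ) : 0 ≤ tailS J l j := by
  unfold tailS
  have h1 : 0 ≤ ∑ i ∈ Ioc j J, l i / 2 ^ i :=
    Finset.sum_nonneg fun i _ => div_nonneg (hl i) (by positivity)
  have h2 : 0 ≤ l J / 2 ^ J := div_nonneg (hl J) (by positivity)
  linarith

lemma tailS_succ {J : ℕ} (l : ℕ → ℝ) {j : ℕ} (hj : j < J) :
    tailS J l j = tailS J l (j + 1) + l (j + 1) / 2 ^ (j + 1) := by
  unfold tailS
  have : Ioc j J = insert (j + 1) (Ioc (j + 1) J) := by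
    ext i; simp only [mem_Ioc, mem_insert]; omega
  rw [this, Finset.sum_insert (by simp)]
  ring

/-- growth: the geometric law sees the tail. -/
lemma law_tail {J J0 : ℕ} (h : J0 < J) {l : ℕ → ℝ} (hl : ∀ i, 0 ≤ l i) :
    (1 / 32) * (15 / 8 : ℝ) ^ J0 * tailS J l J0 ≤ ∑ j ∈ Icc 1 J, law J j * l j := by
  have h1 : ∑ j ∈ Ioc J0 J, law J j * l j ≤ ∑ j ∈ Icc 1 J, law J j * l j := by
    apply Finset.sum_le_sum_of_subset_of_nonneg
    · intro i hi; simp only [mem_Ioc, mem_Icc] at *; omega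
    · intro i _ _; exact mul_nonneg (law_nonneg J i) (hl i)
  refine le_trans ?_ h1
  have h2 : tailS J l J0 ≤ 2 * ∑ i ∈ Ioc J0 J, l i / 2 ^ i := by
    unfold tailS
    have : l J / 2 ^ J ≤ ∑ i ∈ Ioc J0 J, l i / 2 ^ i :=
      Finset.single_le_sum (f := fun i => l i / 2 ^ i)
        (fun i _ => div_nonneg (hl i) (by positivity)) (by simp [h])
    linarith
  have h3 : (1 / 16) * (15 / 8 : ℝ) ^ J0 * ∑ i ∈ Ioc J0 J, l i / 2 ^ i
      ≤ ∑ j ∈ Ioc J0 J, law J j * l j := by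
    rw [Finset.mul_sum]
    apply Finset.sum_le_sum
    intro i hi
    rw [mem_Ioc] at hi
    have hlaw := law_ge' (J := J) (j := i) (by omega) hi.2
    have hpow : (15 / 8 : ℝ) ^ J0 ≤ (15 / 8 : ℝ) ^ i :=
      pow_le_pow_right₀ (by norm_num) hi.1.le
    have hsplit : (15 / 8 : ℝ) ^ i = (15 / 16 : ℝ) ^ i * 2 ^ i := by
      rw [← mul_pow]; norm_num
    have h2i : (0 : ℝ) < 2 ^ i := by positivity
    calc (1 / 16) * (15 / 8 : ℝ) ^ J0 * (l i / 2 ^ i)
        ≤ (1 / 16) * (15 / 8 : ℝ) ^ i * (l i / 2 ^ i) := by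
          have : 0 ≤ l i / 2 ^ i := div_nonneg (hl i) h2i.le
          nlinarith [mul_le_mul_of_nonneg_right hpow this]
      _ = (1 / 16) * (15 / 16 : ℝ) ^ i * l i := by
          rw [hsplit]; field_simp
      _ ≤ law J i * l i := mul_le_mul_of_nonneg_right hlaw (hl i)
  have h4 : 0 ≤ (1 / 32) * (15 / 8 : ℝ) ^ J0 := by positivity
  calc (1 / 32) * (15 / 8 : ℝ) ^ J0 * tailS J l J0
      ≤ (1 / 32) * (15 / 8 : ℝ) ^ J0 * (2 * ∑ i ∈ Ioc J0 J, l i / 2 ^ i) :=
        mul_le_mul_of_nonneg_left h2 h4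
    _ = (1 / 16) * (15 / 8 : ℝ) ^ J0 * ∑ i ∈ Ioc J0 J, l i / 2 ^ i := by ring
    _ ≤ _ := h3

/-- decay of `S_j` is at most `(6/11)^j`, up to the bad terms and `3 eps r`. -/
lemma tailS_lower {J : ℕ} {l : ℕ → ℝ} (hl : ∀ i, 0 ≤ l i) {e : ℝ} (he : 0 ≤ e)
    (B : Finset ℕ) (J0 : ℕ) (h : J0 ≤ J)
    (hgood : ∀ j ∈ Icc 1 J0, j ∉ B → (6 / 5) * (l j / 2 ^ j) ≤ tailS J l j + e) :
    (6 / 11 : ℝ) ^ J0 * (tailS J l 0 - ∑ j ∈ (Icc 1 J0).filter (· ∈ B), (15 / 16 : ℝ) ^ j * l j)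
      - (11 / 5) * e ≤ tailS J l J0 := by
  induction J0 with
  | zero =>
    simp only [pow_zero, one_mul]
    have : (Icc 1 0 : Finset ℕ) = ∅ := by simp
    rw [this]; simp only [Finset.filter_empty, Finset.sum_empty, sub_zero]
    linarith
  | succ m ih =>
    have ih' := ih (by omega) (fun j hj => hgood j (by simp only [mem_Icc] at *; omega))
    have hs := tailS_succ l (J := J) (j := m) (by omega)
    have hIcc : Icc 1 (m + 1) = insert (m + 1) (Icc 1 m) := by
      ext i; simp only [mem_Icc, mem_insert]; omega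
    set T := ∑ j ∈ (Icc 1 m).filter (· ∈ B), (15 / 16 : ℝ) ^ j * l j with hT
    have hlm := hl (m + 1)
    have h2p : (0 : ℝ) < 2 ^ (m + 1) := by positivity
    have hp : (0 : ℝ) < (6 / 11 : ℝ) ^ m := by positivity
    have hTS0 := tailS_nonneg (J := J) hl (m + 1)
    by_cases hB : m + 1 ∈ B
    · have hfil : (Icc 1 (m + 1)).filter (· ∈ B) = insert (m + 1) ((Icc 1 m).filter (· ∈ B)) := by
        rw [hIcc, Finset.filter_insert, if_pos hB]
      rw [hfil, Finset.sum_insert (by simp), ← hT]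
      -- S_{m+1} = S_m - l/2^{m+1} >= (6/11) S_m - l / 2^{m+1}
      have hkey : l (m + 1) / 2 ^ (m + 1) ≤ (6 / 11 : ℝ) ^ (m + 1) * ((15 / 16 : ℝ) ^ (m + 1) * l (m + 1)) := by
        have h1 : (1 / 2 : ℝ) ^ (m + 1) ≤ (6 / 11 : ℝ) ^ (m + 1) * (15 / 16 : ℝ) ^ (m + 1) := by
          rw [← mul_pow]
          exact pow_le_pow_left₀ (by norm_num) (by norm_num) _
        have h2 : l (m + 1) / 2 ^ (m + 1) = (1 / 2 : ℝ) ^ (m + 1) * l (m + 1) := by
          rw [one_div, inv_pow]; field_simp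
        rw [h2]
        calc (1 / 2 : ℝ) ^ (m + 1) * l (m + 1)
            ≤ ((6 / 11 : ℝ) ^ (m + 1) * (15 / 16 : ℝ) ^ (m + 1)) * l (m + 1) :=
              mul_le_mul_of_nonneg_right h1 hlm
          _ = _ := by ring
      have hSm : 0 ≤ tailS J l m := tailS_nonneg hl m
      have hpow : (6 / 11 : ℝ) ^ (m + 1) = (6 / 11 : ℝ) ^ m * (6 / 11) := pow_succ _ _
      have e1 : (6 / 11 : ℝ) ^ (m + 1) * (tailS J l 0 - ((15 / 16 : ℝ) ^ (m + 1) * l (m + 1) + T))
          = (6 / 11) * ((6 / 11 : ℝ) ^ m * (tailS J l 0 - T))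
            - (6 / 11 : ℝ) ^ (m + 1) * ((15 / 16 : ℝ) ^ (m + 1) * l (m + 1)) := by
        rw [hpow]; ring
      rw [e1]
      linarith [ih', hs, hkey, hSm]
    · have hfil : (Icc 1 (m + 1)).filter (· ∈ B) = (Icc 1 m).filter (· ∈ B) := by
        rw [hIcc, Finset.filter_insert, if_neg hB]
      rw [hfil, ← hT]
      have hg := hgood (m + 1) (by simp) hB
      have hpow : (6 / 11 : ℝ) ^ (m + 1) = (6 / 11 : ℝ) ^ m * (6 / 11) := pow_succ _ _
      rw [hpow]
      -- S_m = S_{m+1} + a, (6/5) a <= S_{m+1} + e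
      nlinarith [ih', hs, hg]

/-- **SEQ**: for the truncated geometric law (any truncation `J ≥ 1`): either the bad terms carry a
constant part of `r` (constant `c/4`, independent of `J0`), or the expected drop is at least `C r`. -/
theorem seq_core {c C : ℝ} (hc : 0 < c) :
    ∃ J0 : ℕ, 1 ≤ J0 ∧ ∃ ε₀ : ℝ, 0 < ε₀ ∧ ∀ ε : ℝ, 0 ≤ ε → ε ≤ ε₀ →
      ∀ (J : ℕ), 1 ≤ J → ∀ (l : ℕ → ℝ), (∀ i, 0 ≤ l i) → ∀ (r : ℝ), 0 ≤ r →
      ∀ (B : Finset ℕ), c * r ≤ tailS J l 0 →
      (∀ j ∈ Icc 1 (min J0 J), j ∉ B → (6 / 5) * (l j / 2 ^ j) ≤ tailS J l j + ε * r) →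
      (c / 4) * r ≤ ∑ j ∈ (Icc 1 (min J0 J)).filter (· ∈ B), (15 / 16 : ℝ) ^ j * l j ∨
      C * r ≤ ∑ j ∈ Icc 1 J, law J j * l j := by
  obtain ⟨n, hn⟩ := pow_unbounded_of_one_lt (64 * C / c) (show (1 : ℝ) < 45 / 44 by norm_num)
  refine ⟨n + 1, by omega, (6 / 11 : ℝ) ^ (n + 1) * c / 12, by positivity, ?_⟩
  intro ε he0 he J hJ1 l hl r hr B hS hgood
  set K := min (n + 1) J with hK
  by_cases hbad : (c / 4) * r ≤ ∑ j ∈ (Icc 1 K).filter (· ∈ B), (15 / 16 : ℝ) ^ j * l j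
  · exact Or.inl hbad
  · right
    push Not at hbad
    have hKJ : K ≤ J := min_le_right _ _
    have hKn : K ≤ n + 1 := min_le_left _ _
    have h1 := tailS_lower (J := J) hl (e := ε * r) (by positivity) B K hKJ hgood
    have hp : (0 : ℝ) < (6 / 11 : ℝ) ^ K := by positivity
    have hpow : (6 / 11 : ℝ) ^ (n + 1) ≤ (6 / 11 : ℝ) ^ K :=
      pow_le_pow_of_le_one (by norm_num) (by norm_num) hKn
    have hd : ε * r ≤ (6 / 11 : ℝ) ^ K * c / 12 * r := by
      refine mul_le_mul_of_nonneg_right (he.trans ?_) hr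
      have := mul_le_mul_of_nonneg_right hpow hc.le
      linarith
    have h3 : (6 / 11 : ℝ) ^ K * (c / 2) * r ≤ tailS J l K := by
      have ha : c * r - (c / 4) * r ≤ tailS J l 0 - ∑ j ∈ (Icc 1 K).filter (· ∈ B), (15 / 16 : ℝ) ^ j * l j := by
        linarith
      have hb := mul_le_mul_of_nonneg_left ha hp.le
      have hcr : 0 ≤ (6 / 11 : ℝ) ^ K * c * r := by positivity
      nlinarith [hb, hd, h1, hcr]
    by_cases hlt : n + 1 < J
    · have hKe : K = n + 1 := by rw [hK]; omega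
      rw [hKe] at h3 hp
      have h2 := law_tail (J := J) (J0 := n + 1) hlt hl
      have h4 : (45 / 44 : ℝ) ^ (n + 1) = (15 / 8 : ℝ) ^ (n + 1) * (6 / 11 : ℝ) ^ (n + 1) := by
        rw [← mul_pow]; norm_num
      have h5 : 64 * C / c ≤ (45 / 44 : ℝ) ^ (n + 1) := by
        refine hn.le.trans (pow_le_pow_right₀ (by norm_num) (by omega))
      have h6 : 64 * C ≤ (45 / 44 : ℝ) ^ (n + 1) * c := by
        rwa [div_le_iff₀ hc] at h5
      refine le_trans ?_ h2
      have h7 : (0 : ℝ) < (15 / 8 : ℝ) ^ (n + 1) := by positivity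
      calc C * r = (1 / 64) * (64 * C) * r := by ring
        _ ≤ (1 / 64) * ((45 / 44 : ℝ) ^ (n + 1) * c) * r := by
            have := mul_le_mul_of_nonneg_right h6 hr
            linarith
        _ = (1 / 32) * (15 / 8 : ℝ) ^ (n + 1) * ((6 / 11 : ℝ) ^ (n + 1) * (c / 2) * r) := by
            rw [h4]; ring
        _ ≤ (1 / 32) * (15 / 8 : ℝ) ^ (n + 1) * tailS J l (n + 1) := by
            apply mul_le_mul_of_nonneg_left h3; positivity
    · -- here `K = J`: then `r = 0`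
      have hKe : K = J := by rw [hK]; omega
      rw [hKe] at h3 hp hgood hbad hd
      have hSJ : tailS J l J = l J / 2 ^ J := by
        unfold tailS; simp
      have hJmem : J ∈ Icc 1 J := by simp [hJ1]
      rcases hr.lt_or_eq with hr' | hr'
      · exfalso
        have h2p : (0 : ℝ) < 2 ^ J := by positivity
        have hcr : 0 < (6 / 11 : ℝ) ^ J * c * r := by positivity
        by_cases hJB : J ∈ B
        · have hle : (15 / 16 : ℝ) ^ J * l J
              ≤ ∑ j ∈ (Icc 1 J).filter (· ∈ B), (15 / 16 : ℝ) ^ j * l j := by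
            apply Finset.single_le_sum (f := fun j => (15 / 16 : ℝ) ^ j * l j)
            · intro i _; exact mul_nonneg (by positivity) (hl i)
            · simp only [mem_filter]; exact ⟨hJmem, hJB⟩
          have h8 : l J / 2 ^ J = (8 / 15 : ℝ) ^ J * ((15 / 16 : ℝ) ^ J * l J) := by
            have : (8 / 15 : ℝ) ^ J * (15 / 16 : ℝ) ^ J = (1 / 2) ^ J := by
              rw [← mul_pow]; norm_num
            rw [← mul_assoc, this, one_div, inv_pow]; field_simp
          have h9 : (8 / 15 : ℝ) ^ J ≤ (6 / 11 : ℝ) ^ J :=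
            pow_le_pow_left₀ (by norm_num) (by norm_num) _
          have h10 : (15 / 16 : ℝ) ^ J * l J < c / 4 * r := lt_of_le_of_lt hle hbad
          have h11 : 0 ≤ (15 / 16 : ℝ) ^ J * l J := mul_nonneg (by positivity) (hl J)
          have h12 : l J / 2 ^ J ≤ (6 / 11 : ℝ) ^ J * (c / 4 * r) := by
            rw [h8]
            calc (8 / 15 : ℝ) ^ J * ((15 / 16 : ℝ) ^ J * l J)
                ≤ (6 / 11 : ℝ) ^ J * ((15 / 16 : ℝ) ^ J * l J) := mul_le_mul_of_nonneg_right h9 h11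
              _ ≤ (6 / 11 : ℝ) ^ J * (c / 4 * r) := mul_le_mul_of_nonneg_left h10.le hp.le
          rw [hSJ] at h3
          nlinarith [h3, h12, hcr]
        · have hg := hgood J hJmem hJB
          rw [hSJ] at hg h3
          nlinarith [h3, hg, hd, hcr]
      · rw [← hr']
        simp only [mul_zero]
        exact Finset.sum_nonneg fun j _ => mul_nonneg (law_nonneg J j) (hl j)

/-- **LINNUM**: the numerical assembly of the single point claim (8), one coordinate:
`l j` = drop of `p` if the next macro move is `(this coordinate, j)`; `N j`, `R j` = value of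
`N_{i+1}` resp. expected `r_{i+2}` in that branch. `w` = probability of the coordinate. -/
theorem lin_num {c w : ℝ} (hc : 0 < c) (hw : 0 < w) :
    ∃ J0 : ℕ, 1 ≤ J0 ∧ ∃ c₈ : ℝ, 0 < c₈ ∧ ∃ ε₀ : ℝ, 0 < ε₀ ∧ ∀ ε : ℝ, 0 ≤ ε → ε ≤ ε₀ →
      ∀ (ε' : ℝ), 0 < ε' → ∀ (J : ℕ), 1 ≤ J →
      ∀ (l N R : ℕ → ℝ), (∀ i, 0 ≤ l i) → (∀ i, 0 ≤ N i) → (∀ i, 0 ≤ R i) →
      ∀ (r : ℝ), 0 ≤ r → c * r ≤ tailS J l 0 →
      (∀ j ∈ Icc 1 (min J0 J), (6 / 5) * (l j / 2 ^ j) ≤ tailS J l j + ε * r ∨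
        (c₈ * r ≤ l j → ε' * l j ≤ N j ∨ (2048 / (c * w)) * l j ≤ R j)) →
      r ≤ (1 / 16) * (w * ∑ j ∈ Icc 1 J, law J j * l j)
        + (128 / (c * w * ε')) * (w * ∑ j ∈ Icc 1 J, law J j * N j)
        + (1 / 16) * (w * ∑ j ∈ Icc 1 J, law J j * R j) := by
  obtain ⟨J0, hJ0, ε₀, hε₀, H⟩ := seq_core (C := 16 / w) hc
  have hJ0' : (0 : ℝ) < J0 := by exact_mod_cast hJ0
  refine ⟨J0, hJ0, c / (8 * J0), by positivity, ε₀, hε₀, ?_⟩
  intro ε he0 he ε' hε' J hJ l N R hl hN hR r hr hS hyp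
  classical
  set B : Finset ℕ := (Icc 1 (min J0 J)).filter (fun j => ¬ ((6 / 5) * (l j / 2 ^ j) ≤ tailS J l j + ε * r))
    with hBdef
  have hlaw0 : ∀ (f : ℕ → ℝ), (∀ i, 0 ≤ f i) → 0 ≤ ∑ j ∈ Icc 1 J, law J j * f j :=
    fun f hf => Finset.sum_nonneg fun j _ => mul_nonneg (law_nonneg J j) (hf j)
  have hgood : ∀ j ∈ Icc 1 (min J0 J), j ∉ B → (6 / 5) * (l j / 2 ^ j) ≤ tailS J l j + ε * r := by
    intro j hj hjB
    by_contra hcon
    exact hjB (by rw [hBdef, mem_filter]; exact ⟨hj, hcon⟩)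
  have hL0 := hlaw0 l hl
  have hN0 := hlaw0 N hN
  have hR0 := hlaw0 R hR
  have hcoef : 0 ≤ 128 / (c * w * ε') := by positivity
  rcases H ε he0 he J hJ l hl r hr B hS hgood with hbad | hgd
  · -- the bad case
    have hfilt : (Icc 1 (min J0 J)).filter (· ∈ B) = B := by
      ext j
      simp only [mem_filter, hBdef]
      tauto
    rw [hfilt] at hbad
    -- split the bad set
    set B1 := B.filter (fun j => c / (8 * J0) * r ≤ l j) with hB1
    set B2 := B.filter (fun j => ¬ (c / (8 * J0) * r ≤ l j)) with hB2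
    have hsplit : ∑ j ∈ B, (15 / 16 : ℝ) ^ j * l j
        = ∑ j ∈ B1, (15 / 16 : ℝ) ^ j * l j + ∑ j ∈ B2, (15 / 16 : ℝ) ^ j * l j :=
      (Finset.sum_filter_add_sum_filter_not _ _ _).symm
    have hB2le : ∑ j ∈ B2, (15 / 16 : ℝ) ^ j * l j ≤ c / 8 * r := by
      have h1 : ∀ j ∈ B2, (15 / 16 : ℝ) ^ j * l j ≤ c / (8 * J0) * r := by
        intro j hj
        rw [hB2, mem_filter] at hj
        have h2 := hj.2
        push Not at h2
        have h3 : (15 / 16 : ℝ) ^ j ≤ 1 := pow_le_one₀ (by norm_num) (by norm_num)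
        have h4 : (15 / 16 : ℝ) ^ j * l j ≤ 1 * l j := mul_le_mul_of_nonneg_right h3 (hl j)
        linarith
      have h2 := Finset.sum_le_card_nsmul B2 _ _ h1
      have h3 : (B2.card : ℝ) ≤ J0 := by
        have : B2.card ≤ (Icc 1 J0).card := by
          apply Finset.card_le_card
          intro j hj
          rw [hB2, mem_filter, hBdef, mem_filter, mem_Icc] at hj
          have := hj.1.1
          rw [mem_Icc]
          omega
        rw [Nat.card_Icc] at this
        exact_mod_cast (by omega : B2.card ≤ J0)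
      rw [nsmul_eq_mul] at h2
      have h4 : (B2.card : ℝ) * (c / (8 * J0) * r) ≤ J0 * (c / (8 * J0) * r) :=
        mul_le_mul_of_nonneg_right h3 (by positivity)
      have h5 : (J0 : ℝ) * (c / (8 * J0) * r) = c / 8 * r := by field_simp
      linarith
    have hB1ge : c / 8 * r ≤ ∑ j ∈ B1, (15 / 16 : ℝ) ^ j * l j := by
      rw [hsplit] at hbad
      linarith
    -- each term of B1 is paid by N or R
    have hterm : ∀ j ∈ B1, l j ≤ N j / ε' + R j / (2048 / (c * w)) := by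
      intro j hj
      rw [hB1, mem_filter, hBdef, mem_filter] at hj
      obtain ⟨⟨hjI, hjn⟩, hjl⟩ := hj
      have hC1 : (0 : ℝ) < 2048 / (c * w) := by positivity
      rcases hyp j hjI with h | h
      · exact absurd h hjn
      · rcases h hjl with h | h
        · have h1 : l j ≤ N j / ε' := by rw [le_div_iff₀ hε']; linarith
          have h2 : 0 ≤ R j / (2048 / (c * w)) := div_nonneg (hR j) hC1.le
          linarith
        · have h1 : l j ≤ R j / (2048 / (c * w)) := by rw [le_div_iff₀ hC1]; linarith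
          have h2 : 0 ≤ N j / ε' := div_nonneg (hN j) hε'.le
          linarith
    have hB1sub : B1 ⊆ Icc 1 J := by
      intro j hj
      rw [hB1, mem_filter, hBdef, mem_filter, mem_Icc] at hj
      rw [mem_Icc]; omega
    have hqlaw : ∀ j ∈ B1, (15 / 16 : ℝ) ^ j ≤ 16 * law J j := by
      intro j hj
      have hj' := hB1sub hj
      rw [mem_Icc] at hj'
      have := law_ge' (J := J) hj'.1 hj'.2
      linarith
    have hsum : ∑ j ∈ B1, (15 / 16 : ℝ) ^ j * l j
        ≤ 16 * ((∑ j ∈ Icc 1 J, law J j * N j) / ε' + (∑ j ∈ Icc 1 J, law J j * R j) / (2048 / (c * w))) := by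
      have h1 : ∀ j ∈ B1, (15 / 16 : ℝ) ^ j * l j
          ≤ 16 * (law J j * N j / ε' + law J j * R j / (2048 / (c * w))) := by
        intro j hj
        have ht := hterm j hj
        have hq := hqlaw j hj
        have hq0 : (0 : ℝ) ≤ 16 * law J j := by have := law_nonneg J j; linarith
        calc (15 / 16 : ℝ) ^ j * l j ≤ 16 * law J j * l j := mul_le_mul_of_nonneg_right hq (hl j)
          _ ≤ 16 * law J j * (N j / ε' + R j / (2048 / (c * w))) := mul_le_mul_of_nonneg_left ht hq0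
          _ = _ := by ring
      calc ∑ j ∈ B1, (15 / 16 : ℝ) ^ j * l j
          ≤ ∑ j ∈ B1, 16 * (law J j * N j / ε' + law J j * R j / (2048 / (c * w))) :=
            Finset.sum_le_sum h1
        _ ≤ ∑ j ∈ Icc 1 J, 16 * (law J j * N j / ε' + law J j * R j / (2048 / (c * w))) := by
            apply Finset.sum_le_sum_of_subset_of_nonneg hB1sub
            intro j _ _
            have h2 : 0 ≤ law J j * N j / ε' := div_nonneg (mul_nonneg (law_nonneg J j) (hN j)) hε'.le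
            have h3 : 0 ≤ law J j * R j / (2048 / (c * w)) :=
              div_nonneg (mul_nonneg (law_nonneg J j) (hR j)) (by positivity)
            linarith
        _ = _ := by
            rw [← Finset.mul_sum, Finset.sum_add_distrib, Finset.sum_div, Finset.sum_div]
    have hfin : r ≤ (8 / c) * (16 * ((∑ j ∈ Icc 1 J, law J j * N j) / ε'
        + (∑ j ∈ Icc 1 J, law J j * R j) / (2048 / (c * w)))) := by
      have h1 := hB1ge.trans hsum
      rw [div_mul_eq_mul_div, le_div_iff₀ hc]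
      linarith
    have heq : (8 / c) * (16 * ((∑ j ∈ Icc 1 J, law J j * N j) / ε'
        + (∑ j ∈ Icc 1 J, law J j * R j) / (2048 / (c * w))))
        = (128 / (c * w * ε')) * (w * ∑ j ∈ Icc 1 J, law J j * N j)
          + (1 / 16) * (w * ∑ j ∈ Icc 1 J, law J j * R j) := by
      field_simp
      ring
    rw [heq] at hfin
    have h0 : 0 ≤ (1 / 16) * (w * ∑ j ∈ Icc 1 J, law J j * l j) := by positivity
    linarith
  · have h1 : r ≤ (1 / 16) * (w * ∑ j ∈ Icc 1 J, law J j * l j) := by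
      have h2 : 16 / w * r * w = 16 * r := by field_simp
      have h3 := mul_le_mul_of_nonneg_right hgd hw.le
      rw [h2] at h3
      linarith
    have h2 : 0 ≤ (128 / (c * w * ε')) * (w * ∑ j ∈ Icc 1 J, law J j * N j) := by positivity
    have h3 : 0 ≤ (1 / 16) * (w * ∑ j ∈ Icc 1 J, law J j * R j) := by positivity
    linarith

end Vale.Agent.P235.H627
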