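import Vale.Agent.P235.LL.Proc
import Vale.Agent.P235.H492.VarGeod
import Vale.Agent.P235.H627.Seq2

/-! P235, LL, row LIN2 = (8): tools (distance to a set, nearest points, the number of steps). -/

open Finset SimpleGraph

namespace Vale.Agent.P235.LL.H627

open Vale.Agent.P235 Vale.Agent.P235.LL

variable {V : Type} {G : SimpleGraph V} {ℓ : Sym2 V → ℝ}

section dto

variable [Finite V]

theorem dto_le {S : Set V} {b : V} (x : V) (hb : b ∈ S) :
    dto G ℓ S x ≤ pathDist G ℓ x b := by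
  unfold dto
  exact ciInf_le (f := fun b : S => pathDist G ℓ x b) (Set.finite_range _).bddBelow ⟨b, hb⟩

theorem dto_att {S : Set V} (hS : S.Nonempty) (x : V) :
    ∃ b ∈ S, pathDist G ℓ x b = dto G ℓ S x := by
  have : Nonempty S := hS.to_subtype
  obtain ⟨b, hb⟩ := exists_eq_ciInf_of_finite (f := fun b : S => pathDist G ℓ x b)
  exact ⟨b, b.2, hb⟩

omit [Finite V] in
theorem dto_nonneg (hℓ : ∀ e ∈ G.edgeSet, 0 < ℓ e) (S : Set V) (x : V) : 0 ≤ dto G ℓ S x :=
  Real.iInf_nonneg fun b => pathDist_nonneg hℓ x b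

theorem dto_mem (hc : G.Connected) (hℓ : ∀ e ∈ G.edgeSet, 0 < ℓ e) {S : Set V} {x : V}
    (hx : x ∈ S) : dto G ℓ S x = 0 := by
  refine le_antisymm ?_ (dto_nonneg hℓ S x)
  have := dto_le (G := G) (ℓ := ℓ) x hx
  rwa [(pathDist_isMet hc hℓ).self] at this

theorem dto_lip (hc : G.Connected) (hℓ : ∀ e ∈ G.edgeSet, 0 < ℓ e) {S : Set V} (hS : S.Nonempty)
    (x y : V) : dto G ℓ S x ≤ pathDist G ℓ x y + dto G ℓ S y := by
  obtain ⟨b, hb, h⟩ := dto_att (G := G) (ℓ := ℓ) hS y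
  have h1 := dto_le (G := G) (ℓ := ℓ) x hb
  have h2 := (pathDist_isMet hc hℓ).tri x y b
  linarith

theorem dto_lip' (hc : G.Connected) (hℓ : ∀ e ∈ G.edgeSet, 0 < ℓ e) {S : Set V} (hS : S.Nonempty)
    (x y : V) : |dto G ℓ S x - dto G ℓ S y| ≤ pathDist G ℓ x y := by
  have h1 := dto_lip hc hℓ hS x y
  have h2 := dto_lip hc hℓ hS y x
  rw [(pathDist_isMet hc hℓ).symm y x] at h2
  rw [abs_le]; constructor <;> linarith

theorem dto_mono {S T : Set V} (hS : S.Nonempty) (h : S ⊆ T) (x : V) :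
    dto G ℓ T x ≤ dto G ℓ S x := by
  obtain ⟨b, hb, h1⟩ := dto_att (G := G) (ℓ := ℓ) hS x
  rw [← h1]
  exact dto_le x (h hb)

end dto

section comp

variable {X : Set V}

theorem comp_closed {x v y : V} (hv : v ∈ compSet G X x) (hy : y ∉ X) (h : G.Adj v y) :
    y ∈ compSet G X x :=
  ReachOff.trans hv (ReachOff.adj (ReachOff.right hv) hy h)

theorem comp_nb {x v y : V} (hv : v ∈ compSet G X x) (hy : y ∉ compSet G X x) (h : G.Adj v y) :
    y ∈ X := by
  by_contra hyX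
  exact hy (comp_closed hv hyX h)

theorem comp_disj {x v : V} (hv : v ∈ compSet G X x) : v ∉ X := ReachOff.right hv

theorem comp_self {x : V} (hx : x ∉ X) : x ∈ compSet G X x := ReachOff.refl hx

/-- the nearest point of `X` is the nearest point of the complement of the component -/
theorem dto_comp [Finite V] (hc : G.Connected) (hℓ : ∀ e ∈ G.edgeSet, 0 < ℓ e) {x : V}
    (hX : X.Nonempty) (hx : x ∉ X) :
    dto G ℓ (compSet G X x)ᶜ x = dto G ℓ X x := by
  have hsub : X ⊆ (compSet G X x)ᶜ := fun v hv hv' => comp_disj hv' hv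
  refine le_antisymm (dto_mono hX hsub x) ?_
  obtain ⟨y, hy, h1⟩ := dto_att (G := G) (ℓ := ℓ) (hX.mono hsub) x
  obtain ⟨v, p, h, h2, h3⟩ := H492.geod_nearest hc hℓ (A := (compSet G X x)ᶜ) (x := x) (y := y)
    (by simpa using comp_self hx) hy (fun a ha => by rw [h1]; exact dto_le x ha)
  have hv : v ∈ compSet G X x := by simpa using h3 v p.end_mem_support
  have hyX : y ∈ X := comp_nb hv hy h
  rw [← h1]
  exact dto_le x hyX

/-- the last edge of a geodesic to the nearest point of `X`, as a walk inside the component -/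
theorem geod_comp [Finite V] (hc : G.Connected) (hℓ : ∀ e ∈ G.edgeSet, 0 < ℓ e) {x z : V}
    (hx : x ∉ X) (hz : z ∈ X) (hzd : pathDist G ℓ x z = dto G ℓ X x) :
    ∃ (v : V) (p : G.Walk x v) (h : G.Adj v z),
      ((p.concat h).edges.map ℓ).sum = pathDist G ℓ x z ∧ ∀ u ∈ p.support, u ∈ compSet G X x := by
  classical
  obtain ⟨v, p, h, h2, h3⟩ := H492.geod_nearest hc hℓ (A := X) (x := x) (y := z) hx hz
    (fun a ha => by rw [hzd]; exact dto_le x ha)
  refine ⟨v, p, h, h2, fun u hu => ?_⟩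
  refine ⟨p.takeUntil u hu, fun a ha => h3 a (p.support_takeUntil_subset_support hu ha)⟩

end comp

section dom

variable {D : Dom V} {k : Fin 3 × Bool} {j : ℕ}

theorem vis_zero : D.vis k 0 = D.Uᶜ := by
  ext v; simp [Dom.vis]

theorem compl_sub_vis : D.Uᶜ ⊆ D.vis k j := fun v hv hv' => absurd hv' hv

theorem vis_mono {i j : ℕ} (hij : i ≤ j) (h0 : ∀ v, 0 ≤ D.s k v) : D.vis k i ⊆ D.vis k j := by
  intro v hv hvU
  obtain ⟨h1, h2⟩ := hv hvU
  refine ⟨h1.trans hij, h2.trans ?_⟩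
  exact mul_le_mul_of_nonneg_right (pow_le_pow_right₀ (by norm_num) hij) (h0 v)

theorem Jm_spec [Finite V] (D : Dom V) (k : Fin 3 × Bool) :
    1 ≤ D.Jm k ∧ ∀ v ∈ D.U, 0 < D.s k v → 1 ≤ 2 ^ D.Jm k * D.s k v := by
  have hne : {j : ℕ | 1 ≤ j ∧ ∀ v ∈ D.U, 0 < D.s k v → 1 ≤ 2 ^ j * D.s k v}.Nonempty := by
    classical
    have := Fintype.ofFinite V
    have h1 : ∀ v : V, ∃ m : ℕ, 0 < D.s k v → 1 ≤ 2 ^ m * D.s k v := by
      intro v
      by_cases h : 0 < D.s k v
      · obtain ⟨m, hm⟩ := pow_unbounded_of_one_lt (1 / D.s k v) (show (1 : ℝ) < 2 by norm_num)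
        refine ⟨m, fun _ => ?_⟩
        rw [div_lt_iff₀ h] at hm
        exact hm.le
      · exact ⟨0, fun h' => absurd h' h⟩
    choose m hm using h1
    refine ⟨(Finset.univ.sup m) + 1, by omega, fun v _ hv => (hm v hv).trans ?_⟩
    refine mul_le_mul_of_nonneg_right (pow_le_pow_right₀ (by norm_num) ?_) hv.le
    have := Finset.le_sup (f := m) (Finset.mem_univ v)
    omega
  exact Nat.sInf_mem hne

theorem mass_eq (D : Dom V) (k : Fin 3 × Bool) {j : ℕ} (hj : j < D.Jm k) :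
    D.mass k j = P235.H538.law (D.Jm k) (j + 1) := by
  unfold Dom.mass P235.H538.law P235.H538.qq
  by_cases h : j + 1 = D.Jm k
  · rw [if_pos h, if_neg (by omega)]; simp
  · rw [if_neg h, if_pos (by omega)]; norm_num

theorem mass_nonneg (D : Dom V) (k : Fin 3 × Bool) (j : ℕ) : 0 ≤ D.mass k j := by
  unfold Dom.mass; split_ifs <;> positivity

/-- the sum over the steps of one coordinate -/
theorem sum_mass (D : Dom V) (k : Fin 3 × Bool) (f : ℕ → ℝ) :
    ∑ j ∈ range (D.Jm k), D.mass k j * f (j + 1) =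
      ∑ j ∈ Icc 1 (D.Jm k), P235.H538.law (D.Jm k) j * f j := by
  have h1 : Icc 1 (D.Jm k) = Ico (0 + 1) (D.Jm k + 1) := by
    ext i; simp only [mem_Icc, mem_Ico]; omega
  rw [h1, ← Finset.sum_Ico_add' (fun j => P235.H538.law (D.Jm k) j * f j) 0 (D.Jm k) 1,
    ← Finset.range_eq_Ico]
  refine Finset.sum_congr rfl fun j hj => ?_
  rw [mass_eq D k (Finset.mem_range.mp hj)]

theorem E_ge (D : Dom V) (k : Fin 3 × Bool) (f : Fin 3 × Bool → ℕ → ℝ)
    (hf : ∀ k' j, j < D.Jm k' → 0 ≤ f k' j) :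
    1 / 6 * ∑ j ∈ range (D.Jm k), D.mass k j * f k j ≤ Sys.E D f := by
  unfold Sys.E
  refine Finset.single_le_sum (f := fun k => 1 / 6 * ∑ j ∈ range (D.Jm k), D.mass k j * f k j)
    (fun k' _ => ?_) (Finset.mem_univ k)
  refine mul_nonneg (by norm_num) (Finset.sum_nonneg fun j hj => ?_)
  exact mul_nonneg (mass_nonneg D k' j) (hf k' j (Finset.mem_range.mp hj))

end dom

end Vale.Agent.P235.LL.H627
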